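import Mathlib

/-! The substitution t = 1/(1+2y), which turns integrals over y > 1 into integrals over (0, 1/3). -/

namespace Vale.Agent.P273.H539

open MeasureTheory Set

/-- the map y -> 1/(1+2y) -/
noncomputable def ty (y : ℝ) : ℝ := 1 / (1 + 2 * y)

theorem ty_hasDerivAt {y : ℝ} (hy : 1 < y) : HasDerivAt ty (-(2 / (1 + 2 * y) ^ 2)) y := by
  have h0 : (1 + 2 * y) ≠ 0 := by positivity
  have h1 : HasDerivAt (fun y : ℝ => 1 + 2 * y) 2 y := by
    simpa using ((hasDerivAt_id y).const_mul (2 : ℝ)).const_add 1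
  have h2 := h1.inv h0
  have : ty = fun y : ℝ => (1 + 2 * y)⁻¹ := by
    funext z; simp [ty]
  rw [this]
  have h3 : -(2 / (1 + 2 * y) ^ 2) = -2 / (1 + 2 * y) ^ 2 := by ring
  rw [h3]
  exact h2

theorem ty_image : ty '' Ioi 1 = Ioo 0 (1 / 3) := by
  ext t
  constructor
  · rintro ⟨y, hy, rfl⟩
    have hy' : (1 : ℝ) < y := hy
    refine ⟨by unfold ty; positivity, ?_⟩
    unfold ty
    apply one_div_lt_one_div_of_lt (by norm_num)
    linarith
  · rintro ⟨h0, h1⟩
    refine ⟨(1 / t - 1) / 2, ?_, ?_⟩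
    · have : 3 < 1 / t := by
        rw [lt_div_iff₀ h0]; linarith
      simp only [mem_Ioi]; linarith
    · unfold ty
      field_simp
      ring_nf

theorem ty_inj : InjOn ty (Ioi 1) := by
  intro a ha b hb hab
  have ha' : (1 : ℝ) < a := ha
  have hb' : (1 : ℝ) < b := hb
  unfold ty at hab
  have h1 : (1 + 2 * a) ≠ 0 := by positivity
  have h2 : (1 + 2 * b) ≠ 0 := by positivity
  field_simp at hab
  linarith

/-- The row LIM-Q-Y, integrability. -/
theorem integrableOn_subY {f : ℝ → ℝ} (hf : ContinuousOn f (Icc 0 (1 / 3))) :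
    IntegrableOn (fun y : ℝ => 2 / (1 + 2 * y) ^ 2 * f (1 / (1 + 2 * y))) (Ioi 1) := by
  have hI : IntegrableOn f (ty '' Ioi 1) := by
    rw [ty_image]
    exact (hf.integrableOn_Icc).mono_set Ioo_subset_Icc_self
  have h := (integrableOn_image_iff_integrableOn_abs_deriv_smul measurableSet_Ioi
    (fun y hy => (ty_hasDerivAt (mem_Ioi.1 hy)).hasDerivWithinAt) ty_inj f).1 hI
  refine h.congr_fun (fun y hy => ?_) measurableSet_Ioi
  have hy' : (1 : ℝ) < y := hy
  have : (0 : ℝ) ≤ 2 / (1 + 2 * y) ^ 2 := by positivity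
  simp only [abs_neg, abs_of_nonneg this, smul_eq_mul, ty]

/-- The row LIM-Q-Y, the value. -/
theorem integral_subY {f : ℝ → ℝ} (_hf : ContinuousOn f (Icc 0 (1 / 3))) :
    ∫ y in Ioi (1 : ℝ), 2 / (1 + 2 * y) ^ 2 * f (1 / (1 + 2 * y)) =
      ∫ t in (0 : ℝ)..(1 / 3), f t := by
  have h := integral_image_eq_integral_abs_deriv_smul (s := Ioi (1 : ℝ)) measurableSet_Ioi
    (fun y hy => (ty_hasDerivAt (mem_Ioi.1 hy)).hasDerivWithinAt) ty_inj f
  rw [ty_image] at h
  rw [intervalIntegral.integral_of_le (by norm_num), integral_Ioc_eq_integral_Ioo, h]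
  refine setIntegral_congr_fun measurableSet_Ioi (fun y hy => ?_)
  have hy' : (1 : ℝ) < y := hy
  have : (0 : ℝ) ≤ 2 / (1 + 2 * y) ^ 2 := by positivity
  simp only [abs_neg, abs_of_nonneg this, smul_eq_mul, ty]

end Vale.Agent.P273.H539
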