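import Vale.Agent.P273.H857.Stm

/-!
Row GP-ALT: the alternating sum of the basic half periods.
-/

open Complex Set Filter Topology MeasureTheory

namespace Vale.Agent.P273.H539

open Vale.Agent.P273.H857

noncomputable section

theorem injective_of_XX {b : C6} (h : b ∈ XX) : Function.Injective b := by
  intro i j e
  by_contra n
  rcases lt_or_gt_of_ne n with h1 | h1
  · exact absurd (h i j h1 (by rw [e])) (by rw [e]; exact lt_irrefl _)
  · exact absurd (h j i h1 (by rw [e])) (by rw [e]; exact lt_irrefl _)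

/-- left of all roots every set of small labels is admissible -/
theorem OK_left {b : C6} (hb : b ∈ XX) {x : ℂ} (hx : ∀ l, x.re < (b l).re) {B : Finset (Fin 6)}
    (hB : ∀ l ∈ B, ∀ m ∉ B, l < m) : OK B b x :=
  ⟨fun l hl m hm e _ => hb l m (hB l hl m hm) e,
    fun l _ e => absurd (hx l) (by rw [e]; exact lt_irrefl _)⟩

theorem lo_lt {j l m : Fin 6} (hl : l ∈ lo j) (hm : m ∉ lo j) : l < m := by
  simp only [lo, Finset.mem_filter, Finset.mem_univ, true_and] at hl hm
  exact hl.trans_le (not_lt.1 hm)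

theorem univ_lt {l m : Fin 6} (_hl : l ∈ (Finset.univ : Finset (Fin 6)))
    (hm : m ∉ (Finset.univ : Finset (Fin 6))) : l < m := absurd (Finset.mem_univ m) hm

/-- **row GP-ALT** -/
theorem stmALT (hF : StmFLIPL) (hD : StmDEC) : StmALT := by
  intro k b hk hb
  have hi := injective_of_XX hb
  obtain ⟨d0, d1⟩ := hD k b hk hi
  -- one flip
  have key : ∀ x : ℂ, (∀ l, x.re < (b l).re) →
      2 * (piX k 0 b - piX k 1 b + piX k 2 b - piX k 3 b + piX k 4 b - piX k 5 b) =
        P k ∅ b x - P k Finset.univ b x := by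
    intro x hx
    have o : ∀ j, OK (lo j) b x := fun j => OK_left hb hx fun l hl m hm => lo_lt hl hm
    have ou : OK Finset.univ b x := OK_left hb hx fun l hl m hm => univ_lt hl hm
    have e0 : lo 0 = ∅ := by decide
    have e1 : insert 0 (lo 0) = lo 1 := by decide
    have e2 : insert 1 (lo 1) = lo 2 := by decide
    have e3 : insert 2 (lo 2) = lo 3 := by decide
    have e4 : insert 3 (lo 3) = lo 4 := by decide
    have e5 : insert 4 (lo 4) = lo 5 := by decide
    have e6 : insert 5 (lo 5) = Finset.univ := by decide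
    have f0 := hF k (lo 0) b x 0 hk hi (by decide) (o 0) (by rw [e1]; exact o 1) (hx 0)
    have f1 := hF k (lo 1) b x 1 hk hi (by decide) (o 1) (by rw [e2]; exact o 2) (hx 1)
    have f2 := hF k (lo 2) b x 2 hk hi (by decide) (o 2) (by rw [e3]; exact o 3) (hx 2)
    have f3 := hF k (lo 3) b x 3 hk hi (by decide) (o 3) (by rw [e4]; exact o 4) (hx 3)
    have f4 := hF k (lo 4) b x 4 hk hi (by decide) (o 4) (by rw [e5]; exact o 5) (hx 4)
    have f5 := hF k (lo 5) b x 5 hk hi (by decide) (o 5) (by rw [e6]; exact ou) (hx 5)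
    rw [e1] at f0
    rw [e2] at f1
    rw [e3] at f2
    rw [e4] at f3
    rw [e5] at f4
    rw [e6] at f5
    rw [← e0]
    unfold piX
    linear_combination -f0 + f1 - f2 + f3 - f4 + f5
  have l1 : Tendsto (fun R : ℝ => P k ∅ b (-(R : ℂ)) - P k Finset.univ b (-(R : ℂ))) atTop
      (𝓝 (0 - 0)) := d0.sub d1
  have l2 : ∀ᶠ R : ℝ in atTop, P k ∅ b (-(R : ℂ)) - P k Finset.univ b (-(R : ℂ)) =
      2 * (piX k 0 b - piX k 1 b + piX k 2 b - piX k 3 b + piX k 4 b - piX k 5 b) := by
    have : ∀ᶠ R : ℝ in atTop, ∀ l, -(b l).re < R :=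
      eventually_all.2 fun l => eventually_gt_atTop _
    filter_upwards [this] with R hR
    refine (key _ fun l => ?_).symm
    have := hR l
    simp only [neg_re, ofReal_re]
    linarith
  have l3 := tendsto_nhds_unique (l1.congr' l2) tendsto_const_nhds
  rw [sub_zero] at l3
  have : (2 : ℂ) ≠ 0 := two_ne_zero
  rcases mul_eq_zero.1 l3.symm with h | h
  · exact absurd h this
  · exact h

end

end Vale.Agent.P273.H539
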