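import Vale.Agent.P273.H539.GPFLIP
import Vale.Agent.P273.H595.Nat

/-!
Row GP-FLIP on the natural sets of H595 (labels may coincide away from the start).
-/

open Complex Set Filter Topology MeasureTheory
open scoped ContDiff

namespace Vale.Agent.P273.H539.N

open Vale.Agent.P273.H857 Vale.Agent.P273.H595 Vale.Agent.P273.H539

noncomputable section

/-- **row GP-FLIP, first half, natural form** -/
theorem stmFLIPRn : StmFLIPRn := by
  intro k B b x m _ _ hm h1 h2 hre
  symm
  refine P_congr (fun g => ?_) (fun g => ?_)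
  · -- the same paths are admissible
    have key : b m ≠ x → 0 ≤ (b m - x).re → False := by
      intro n h0
      rw [sub_re] at h0
      have e : (b m).re = x.re := by linarith
      have a1 := (h1.2 m n e).2 hm
      have a2 := (h2.2 m n e).1 (Finset.mem_insert_self _ _)
      linarith
    unfold Adm
    refine and_congr_right fun _ => forall_congr' fun l => ?_
    rcases eq_or_ne l m with rfl | hl
    · exact ⟨fun _ n h0 => (key n h0).elim, fun _ n h0 => (key n h0).elim⟩
    · simp [hl]
  · unfold PG
    congr 1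
    refine setIntegral_congr_fun measurableSet_Ioi fun t ht => ?_
    have ht' : (0 : ℝ) < t := ht
    have h3 : sq (insert m B) b (gam x g t) = sq B b (gam x g t) :=
      sq_insert_right hm b (by rw [gam_re]; linarith)
    simp only [igd, h3]

/-- the value of `P` at the starting point is the limit from the right, away from the roots -/
theorem tendsto_P_of_ne (hH : StmHOLn) {k : ℕ} {B : Finset (Fin 6)} {b : C6} {x : ℂ} (hk : k ≤ 1)
    (hx : ∀ l, b l ≠ x) (h : OK B b x) {α : Type*} {f : Filter α}
    {u : α → ℂ} (hu : Tendsto u f (𝓝 x)) : Tendsto (fun a => P k B b (u a)) f (𝓝 (P k B b x)) :=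
  ((hH k B b x hk hx h).2.continuousAt.tendsto).comp hu

/-- the limit of `P` at a root that is passed from above -/
theorem tendsto_P_root1 (hR : StmROOTn) {k : ℕ} {B : Finset (Fin 6)} {b : C6} {j : Fin 6}
    (hk : k ≤ 1) (hb : ∀ l, l ≠ j → b l ≠ b j) (h : OK B b (b j)) (hj : j ∉ B) {α : Type*}
    {f : Filter α} {u : α → ℂ} (hu : Tendsto u f (𝓝 (b j))) (hl : ∀ᶠ a in f, u a - b j ∈ Sl) :
    Tendsto (fun a => P k B b (u a)) f (𝓝 (P k B b (b j))) := by
  obtain ⟨h1, h2⟩ := hR k B b j hk hb h hj
  have hw : Tendsto (fun a => u a - b j) f (𝓝 0) := by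
    have := hu.sub_const (b j)
    rwa [sub_self] at this
  have h3 := tendsto_abs (X := C6) (Q := fun p => P k B p.1 (p.1 j + p.2)) (r := rt) (S := Sl)
    (c₀ := P k B b (b j)) h1.continuousAt hw (tendsto_rt_zero hw) (h2.mono fun p hp hs e => by
      have := hp.1 hs
      rw [this, e]) hl
  refine h3.congr fun a => ?_
  simp only [add_sub_cancel]

/-- the limit of `P` at a root that is passed from above -/
theorem tendsto_P_root2 (hR : StmROOTn) {k : ℕ} {B : Finset (Fin 6)} {b : C6} {j : Fin 6}
    (hk : k ≤ 1) (hb : ∀ l, l ≠ j → b l ≠ b j) (h : OK B b (b j)) (hj : j ∉ B) {α : Type*}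
    {f : Filter α} {u : α → ℂ} (hu : Tendsto u f (𝓝 (b j))) (hl : ∀ᶠ a in f, u a - b j ∈ Su) :
    Tendsto (fun a => P k (insert j B) b (u a)) f (𝓝 (P k B b (b j))) := by
  obtain ⟨h1, h2⟩ := hR k B b j hk hb h hj
  have hw : Tendsto (fun a => u a - b j) f (𝓝 0) := by
    have := hu.sub_const (b j)
    rwa [sub_self] at this
  have h3 := tendsto_abs (X := C6) (Q := fun p => P k (insert j B) p.1 (p.1 j + p.2)) (r := ru)
    (S := Su) (c₀ := P k B b (b j)) h1.continuousAt hw (tendsto_ru_zero hw)
    (h2.mono fun p hp hs e => by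
      have := hp.2 hs
      rw [this, e]) hl
  refine h3.congr fun a => ?_
  simp only [add_sub_cancel]

/-- the value at the starting point is the limit from the right -/
theorem tendsto_P_start (hH : StmHOLn) (hR : StmROOTn) {k : ℕ} {B : Finset (Fin 6)} {b : C6} {x : ℂ}
    (hk : k ≤ 1) (hb : SR b x) (h : OK B b x) {α : Type*} {f : Filter α}
    {u : α → ℂ} (hu : Tendsto u f (𝓝 x)) (hre : ∀ᶠ a in f, x.re < (u a).re) :
    Tendsto (fun a => P k B b (u a)) f (𝓝 (P k B b x)) := by
  by_cases hx : ∀ l, b l ≠ x
  · exact tendsto_P_of_ne hH hk hx h hu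
  push Not at hx
  obtain ⟨j, rfl⟩ := hx
  have hb' : ∀ l, l ≠ j → b l ≠ b j := fun l hl e => hl (hb l j e rfl)
  have hl : ∀ᶠ a in f, u a - b j ∈ Sl := by
    filter_upwards [hre] with a ha
    exact Or.inr (by rw [sub_re]; exact (sub_pos.2 ha).ne')
  have hl' : ∀ᶠ a in f, u a - b j ∈ Su := by
    filter_upwards [hre] with a ha
    exact Or.inr (by rw [sub_re]; exact (sub_pos.2 ha).ne')
  by_cases hj : j ∈ B
  · have h1 := tendsto_P_root2 hR hk hb' (OK.erase h) (Finset.notMem_erase j B) hu hl'
    rw [Finset.insert_erase hj] at h1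
    have h2 := stmFLIPRn k (B.erase j) b (b j) j hk hb (Finset.notMem_erase j B) (OK.erase h)
      (by rw [Finset.insert_erase hj]; exact h) le_rfl
    rw [Finset.insert_erase hj] at h2
    rw [h2]; exact h1
  · exact tendsto_P_root1 hR hk hb' h hj hu hl

/-- **row GP-FLIP, second half** -/
theorem stmFLIPLn (hX : StmEX) (hH : StmHOLn) (hR : StmROOTn) : StmFLIPLn := by
  intro k B b x m hk hb hm h1 h2 hre
  obtain ⟨g0, a0⟩ := hX B b x h1
  obtain ⟨g1, a1⟩ := hX (insert m B) b x h2
  set T : ℝ := (b m - x).re with hT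
  have hT0 : 0 < T := by rw [hT, sub_re]; linarith
  have hmx : b m ≠ x := by rintro e; rw [e] at hre; exact lt_irrefl _ hre
  have c0 : (b m - x).im < g0 T := (a0.2 m hmx hT0.le).2 hm
  have c1 : g1 T < (b m - x).im := (a1.2 m hmx hT0.le).1 (Finset.mem_insert_self _ _)
  -- the path through the root
  set s : ℝ := (g0 T - (b m - x).im) / (g0 T - g1 T) with hs
  have d0 : 0 < g0 T - g1 T := by linarith
  have s0 : 0 < s := div_pos (by linarith) d0
  have s1 : s < 1 := by rw [hs, div_lt_one d0]; linarith
  set g : ℝ → ℝ := fun t => (1 - s) * g0 t + s * g1 t with hg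
  have hgP : IsPath g := a0.1.comb a1.1 _ _
  have hgT : g T = (b m - x).im := by
    have : s * (g0 T - g1 T) = g0 T - (b m - x).im := by rw [hs]; field_simp
    simp only [hg]; linarith
  have hgl : ∀ l, l ≠ m → b l ≠ x → 0 ≤ (b l - x).re →
      (l ∈ B → g (b l - x).re < (b l - x).im) ∧ (l ∉ B → (b l - x).im < g (b l - x).re) := by
    intro l hl n h0
    have e0 := a0.2 l n h0
    have e1 := a1.2 l n h0
    rw [Finset.mem_insert] at e1
    refine ⟨fun hB => ?_, fun hB => ?_⟩
    · have f0 := e0.1 hB
      have f1 := e1.1 (Or.inr hB)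
      simp only [hg]; nlinarith
    · have f0 := e0.2 hB
      have f1 := e1.2 (by rintro (h | h); exacts [hl h, hB h])
      simp only [hg]; nlinarith
  -- points of the path
  have hok : ∀ B' : Finset (Fin 6), (B' = B ∨ B' = insert m B) → ∀ t, 0 < t → t < T →
      OK B' b (gam x g t) := by
    intro B' hB' t t0 t1
    have hO : OK B' b x := by rcases hB' with rfl | rfl <;> assumption
    refine ⟨fun l hl l' hl' e1 e2 => hO.1 l hl l' hl' e1 ?_, fun l hl e => ?_⟩
    · rw [gam_re] at e2; linarith
    · rw [gam_re] at e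
      have hlm : l ≠ m := by
        rintro rfl
        rw [hT, sub_re] at t1; linarith
      have n : b l ≠ x := by rintro e'; rw [e'] at e; linarith
      have e' : (b l - x).re = t := by rw [sub_re]; linarith
      have := hgl l hlm n (by rw [e']; exact t0.le)
      rw [e', sub_im] at this
      rw [gam_im]
      have hmem : l ∈ B' ↔ l ∈ B := by
        rcases hB' with rfl | rfl
        · rfl
        · simp [hlm]
      rw [hmem]
      exact ⟨fun h => by linarith [this.1 h], fun h => by linarith [this.2 h]⟩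
  have hne : ∀ t, 0 < t → t < T → ∀ l, b l ≠ gam x g t := by
    intro t t0 t1 l e
    have er : (b l).re = x.re + t := by rw [e, gam_re]
    have hlm : l ≠ m := by
      rintro rfl
      rw [hT, sub_re] at t1; linarith
    have n : b l ≠ x := by rintro e'; rw [e'] at er; linarith
    have e' : (b l - x).re = t := by rw [sub_re]; linarith
    have := hgl l hlm n (by rw [e']; exact t0.le)
    have ei : (b l - x).im = g t := by rw [sub_im, e, gam_im]; ring
    rw [e', ei] at this
    by_cases h : l ∈ B
    · exact lt_irrefl _ (this.1 h)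
    · exact lt_irrefl _ (this.2 h)
  -- the sum is constant along the path
  set F : ℝ → ℂ := fun t => P k (insert m B) b (gam x g t) + P k B b (gam x g t) with hF
  have hder : ∀ t ∈ Ioo 0 T, HasDerivAt F 0 t := by
    intro t ht
    have e1 := (hH k (insert m B) b (gam x g t) hk (hne t ht.1 ht.2)
      (hok _ (Or.inr rfl) t ht.1 ht.2)).2
    have e2 := (hH k B b (gam x g t) hk (hne t ht.1 ht.2) (hok _ (Or.inl rfl) t ht.1 ht.2)).2
    have e3 := (e1.scomp t (hasDerivAt_gam hgP t)).add (e2.scomp t (hasDerivAt_gam hgP t))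
    have e4 : sq (insert m B) b (gam x g t) = -sq B b (gam x g t) := by
      refine sq_insert_left hm b ?_
      rw [gam_re]
      have := ht.2
      rw [hT, sub_re] at this; linarith
    rw [e4, div_neg, smul_neg, neg_add_cancel] at e3
    exact e3
  have hconst : ∀ t ∈ Ioo 0 T, F t = F (T / 2) := by
    intro t ht
    exact isOpen_Ioo.is_const_of_deriv_eq_zero isPreconnected_Ioo
      (fun t ht => (hder t ht).differentiableAt.differentiableWithinAt)
      (fun t ht => (hder t ht).deriv) ht ⟨by linarith, by linarith⟩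
  -- the limit at the start
  have l0 : Tendsto F (𝓝[>] 0) (𝓝 (P k (insert m B) b x + P k B b x)) := by
    have hu : Tendsto (gam x g) (𝓝[>] 0) (𝓝 x) := by
      have := (tendsto_gam (x := x) hgP 0).mono_left (nhdsWithin_le_nhds (s := Ioi (0 : ℝ)))
      rwa [gam_zero hgP.zero] at this
    have hr : ∀ᶠ t in 𝓝[>] (0 : ℝ), x.re < (gam x g t).re := by
      filter_upwards [self_mem_nhdsWithin] with t ht
      have : (0 : ℝ) < t := ht
      rw [gam_re]; linarith
    exact (tendsto_P_start hH hR hk hb h2 hu hr).add (tendsto_P_start hH hR hk hb h1 hu hr)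
  -- the limit at the root
  have hokm : OK B b (b m) := by
    refine ⟨fun l hl l' hl' e1 e2 => h1.1 l hl l' hl' e1 (hre.trans e2), fun l hl e => ?_⟩
    have hlm : l ≠ m := by rintro rfl; exact hl rfl
    refine ⟨fun h => h1.1 l h m hm e (by rw [e]; exact hre), fun h => ?_⟩
    exact h2.1 m (Finset.mem_insert_self _ _) l
      (by rw [Finset.mem_insert]; rintro (h' | h'); exacts [hlm h', h h']) e.symm hre
  have l1 : Tendsto F (𝓝[<] T) (𝓝 (P k B b (b m) + P k B b (b m))) := by
    have hu : Tendsto (gam x g) (𝓝[<] T) (𝓝 (b m)) := by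
      have := (tendsto_gam (x := x) hgP T).mono_left (nhdsWithin_le_nhds (s := Iio T))
      have e : gam x g T = b m := by
        apply Complex.ext
        · rw [gam_re, hT, sub_re]; ring
        · rw [gam_im, hgT, sub_im]; ring
      rwa [e] at this
    have hr : ∀ᶠ t in 𝓝[<] T, (gam x g t - b m).re ≠ 0 := by
      filter_upwards [self_mem_nhdsWithin] with t ht
      have : t < T := ht
      rw [hT, sub_re] at this
      rw [sub_re, gam_re]
      exact ne_of_lt (by linarith)
    exact (tendsto_P_root2 hR hk (simple_of_ok hm h1 h2 hre) hokm hm hu (hr.mono fun t ht => Or.inr ht)).add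
      (tendsto_P_root1 hR hk (simple_of_ok hm h1 h2 hre) hokm hm hu (hr.mono fun t ht => Or.inr ht))
  have v0 : P k (insert m B) b x + P k B b x = F (T / 2) := by
    refine tendsto_nhds_unique l0 (tendsto_const_nhds.congr' ?_)
    filter_upwards [Ioo_mem_nhdsGT hT0] with t ht
    exact (hconst t ht).symm
  have v1 : P k B b (b m) + P k B b (b m) = F (T / 2) := by
    refine tendsto_nhds_unique l1 (tendsto_const_nhds.congr' ?_)
    filter_upwards [Ioo_mem_nhdsLT hT0] with t ht
    exact (hconst t ht).symm
  rw [v0, ← v1, two_mul]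

end

end Vale.Agent.P273.H539.N
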