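import Vale.Agent.P273.H25.Last

/-!
Integration over the coordinates of a region chart: the large gaps give a volume, the rest an
integral over the surviving coordinates (abstract form).
-/

noncomputable section

namespace Vale.Agent.P273.H539

open MeasureTheory Set

section comm

variable {α β γ δ : Type*} [MeasureSpace α] [MeasureSpace β] [MeasureSpace γ] [MeasureSpace δ]

/-- the exchange of the two middle factors -/
def comm4 (α β γ δ : Type*) [MeasureSpace α] [MeasureSpace β] [MeasureSpace γ] [MeasureSpace δ] :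
    (α × β) × (γ × δ) ≃ᵐ (α × γ) × (β × δ) where
  toFun x := ((x.1.1, x.2.1), (x.1.2, x.2.2))
  invFun x := ((x.1.1, x.2.1), (x.1.2, x.2.2))
  left_inv _ := rfl
  right_inv _ := rfl
  measurable_toFun := by
    refine Measurable.prodMk (Measurable.prodMk ?_ ?_) (Measurable.prodMk ?_ ?_)
    · exact measurable_fst.comp measurable_fst
    · exact measurable_fst.comp measurable_snd
    · exact measurable_snd.comp measurable_fst
    · exact measurable_snd.comp measurable_snd
  measurable_invFun := by
    refine Measurable.prodMk (Measurable.prodMk ?_ ?_) (Measurable.prodMk ?_ ?_)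
    · exact measurable_fst.comp measurable_fst
    · exact measurable_fst.comp measurable_snd
    · exact measurable_snd.comp measurable_fst
    · exact measurable_snd.comp measurable_snd

theorem measurePreserving_comm4 [SigmaFinite (volume : Measure α)]
    [SigmaFinite (volume : Measure β)] [SigmaFinite (volume : Measure γ)]
    [SigmaFinite (volume : Measure δ)] :
    MeasurePreserving (comm4 α β γ δ) := by
  have f1 : MeasurePreserving (MeasurableEquiv.prodAssoc : (α × β) × (γ × δ) ≃ᵐ α × β × (γ × δ)) :=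
    volume_preserving_prodAssoc
  have f2 : MeasurePreserving
      (Prod.map (id : α → α) (MeasurableEquiv.prodAssoc : (β × γ) × δ ≃ᵐ β × γ × δ).symm) :=
    (MeasurePreserving.id (volume : Measure α)).prod
      (volume_preserving_prodAssoc (α₁ := β) (β₁ := γ) (γ₁ := δ)).symm
  have f3 : MeasurePreserving
      (Prod.map (id : α → α) (Prod.map (Prod.swap : β × γ → γ × β) (id : δ → δ))) :=
    (MeasurePreserving.id (volume : Measure α)).prod
      ((Measure.measurePreserving_swap (μ := (volume : Measure β)) (ν := (volume : Measure γ))).prod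
        (MeasurePreserving.id (volume : Measure δ)))
  have f4 : MeasurePreserving
      (Prod.map (id : α → α) (MeasurableEquiv.prodAssoc : (γ × β) × δ ≃ᵐ γ × β × δ)) :=
    (MeasurePreserving.id (volume : Measure α)).prod volume_preserving_prodAssoc
  have f5 : MeasurePreserving
      (MeasurableEquiv.prodAssoc : (α × γ) × (β × δ) ≃ᵐ α × γ × (β × δ)).symm :=
    (volume_preserving_prodAssoc (α₁ := α) (β₁ := γ) (γ₁ := β × δ)).symm
  exact f5.comp (f4.comp (f3.comp (f2.comp f1)))

end comm

section split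

variable {F S : Type*} [Fintype F] [Fintype S] (p : F → Prop) [DecidablePred p]
  (e : S ≃ {f // ¬ p f})

/-- restriction of a family of numbers to the two parts -/
def spl : (F → ℝ) ≃ᵐ ({f // p f} → ℝ) × (S → ℝ) where
  toFun x := (fun i => x i.1, fun s => x (e s).1)
  invFun z := fun f => if h : p f then z.1 ⟨f, h⟩ else z.2 (e.symm ⟨f, h⟩)
  left_inv x := by
    funext f
    by_cases h : p f <;> simp [h]
  right_inv z := by
    refine Prod.ext (funext fun i => ?_) (funext fun s => ?_)
    · simp [i.2]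
    · have h : ¬ p (e s).1 := (e s).2
      simp [h]
  measurable_toFun := by
    refine Measurable.prodMk ?_ ?_
    · exact measurable_pi_lambda _ fun i => measurable_pi_apply _
    · exact measurable_pi_lambda _ fun i => measurable_pi_apply _
  measurable_invFun := by
    refine measurable_pi_lambda _ fun f => ?_
    by_cases h : p f
    · simp only [Equiv.coe_fn_symm_mk, h, dif_pos]
      exact (measurable_pi_apply _).comp measurable_fst
    · simp only [Equiv.coe_fn_symm_mk, h, dif_neg, not_false_eq_true]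
      exact (measurable_pi_apply _).comp measurable_snd

omit [Fintype F] [Fintype S] in
theorem spl_fst (x : F → ℝ) (i : {f // p f}) : (spl p e x).1 i = x i.1 := rfl

omit [Fintype F] [Fintype S] in
theorem spl_snd (x : F → ℝ) (s : S) : (spl p e x).2 s = x (e s).1 := rfl

theorem measurePreserving_spl : MeasurePreserving (spl p e) := by
  have h1 := volume_preserving_piEquivPiSubtypeProd (fun _ : F => ℝ) p
  have h2 := (volume_measurePreserving_piCongrLeft (fun _ : {f // ¬ p f} => ℝ) e).symm
  have h3 := ((MeasurePreserving.id (volume : Measure ({f // p f} → ℝ))).prod h2).comp h1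
  have h4 : (spl p e : (F → ℝ) → _) = (Prod.map id
      (MeasurableEquiv.piCongrLeft (fun _ : {f // ¬ p f} => ℝ) e).symm) ∘
      (MeasurableEquiv.piEquivPiSubtypeProd (fun _ : F => ℝ) p) := by
    funext x
    rfl
  rw [h4]
  exact h3

end split

section cell

variable {I K : Type} [Fintype I] [DecidableEq K]

/-- the open cell of the free large gaps -/
def ocell (nk : I → K) (Y : K → ℝ) : Set (I → ℝ) :=
  {v | (∀ i, 0 < v i) ∧ ∀ i, v i < Y (nk i) - ∑ j, if nk j = nk i then v j else 0}

/-- a point of the open cell -/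
theorem exists_mem_ocell (nk : I → K) {Y : K → ℝ} (hY : ∀ k, 0 < Y k) :
    ∃ v, v ∈ ocell nk Y := by
  have hc : (0 : ℝ) < Fintype.card I + 2 := by positivity
  refine ⟨fun i => Y (nk i) / (Fintype.card I + 2), fun i => div_pos (hY _) hc, fun i => ?_⟩
  have h1 : ∑ j, (if nk j = nk i then Y (nk j) / (Fintype.card I + 2 : ℝ) else 0) ≤
      Fintype.card I * (Y (nk i) / (Fintype.card I + 2)) := by
    have : ∀ j ∈ (Finset.univ : Finset I),
        (if nk j = nk i then Y (nk j) / (Fintype.card I + 2 : ℝ) else 0) ≤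
        Y (nk i) / (Fintype.card I + 2) := by
      intro j _
      split_ifs with h
      · rw [h]
      · exact (div_pos (hY _) hc).le
    have h2 := Finset.sum_le_card_nsmul _ _ _ this
    rwa [Finset.card_univ, nsmul_eq_mul] at h2
  have h3 := hY (nk i)
  have h4 : (Fintype.card I + 2 : ℝ) * (Y (nk i) / (Fintype.card I + 2)) = Y (nk i) := by
    field_simp
  have h5 : 0 < Y (nk i) / (Fintype.card I + 2) := div_pos h3 hc
  nlinarith

theorem convex_ocell (nk : I → K) (Y : K → ℝ) : Convex ℝ (ocell nk Y) := by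
  rintro v ⟨v1, v2⟩ w ⟨w1, w2⟩ a b ha hb hab
  have hs : ∀ i, ∑ j, (if nk j = nk i then (a • v + b • w) j else 0) =
      a * ∑ j, (if nk j = nk i then v j else 0) + b * ∑ j, (if nk j = nk i then w j else 0) := by
    intro i
    rw [Finset.mul_sum, Finset.mul_sum, ← Finset.sum_add_distrib]
    refine Finset.sum_congr rfl fun j _ => ?_
    split_ifs <;> simp
  refine ⟨fun i => ?_, fun i => ?_⟩
  · have h1 := v1 i
    have h2 := w1 i
    simp only [Pi.add_apply, Pi.smul_apply, smul_eq_mul]
    rcases ha.eq_or_lt with h | h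
    · have : b = 1 := by linarith
      rw [← h, this]; linarith
    · have := mul_pos h h1
      have := mul_nonneg hb h2.le
      linarith
  · rw [hs]
    have h1 := v2 i
    have h2 := w2 i
    simp only [Pi.add_apply, Pi.smul_apply, smul_eq_mul]
    have e : Y (nk i) = a * Y (nk i) + b * Y (nk i) := by rw [← add_mul, hab, one_mul]
    rw [e]
    rcases ha.eq_or_lt with h | h
    · have : b = 1 := by linarith
      rw [← h, this]; linarith
    · have := mul_lt_mul_of_pos_left h1 h
      have := mul_le_mul_of_nonneg_left h2.le hb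
      linarith

theorem cell_subset_closure (nk : I → K) {Y : K → ℝ} (hY : ∀ k, 0 < Y k) :
    H25.cell nk Y ⊆ closure (ocell nk Y) := by
  obtain ⟨w, w1, w2⟩ := exists_mem_ocell nk hY
  rintro v ⟨v1, v2⟩
  have ht : Filter.Tendsto (fun t : ℝ => (1 - t) • v + t • w) (nhdsWithin 0 (Ioi 0))
      (nhds v) := by
    have h : Continuous fun t : ℝ => (1 - t) • v + t • w := by fun_prop
    have h2 := (h.tendsto 0).mono_left (nhdsWithin_le_nhds (s := Ioi (0 : ℝ)))
    simpa using h2
  refine mem_closure_of_tendsto ht ?_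
  filter_upwards [Ioo_mem_nhdsGT (show (0 : ℝ) < 1 by norm_num)] with t htt
  obtain ⟨t0, t1⟩ := htt
  have hs : ∀ i, ∑ j, (if nk j = nk i then ((1 - t) • v + t • w) j else 0) =
      (1 - t) * ∑ j, (if nk j = nk i then v j else 0) +
        t * ∑ j, (if nk j = nk i then w j else 0) := by
    intro i
    rw [Finset.mul_sum, Finset.mul_sum, ← Finset.sum_add_distrib]
    refine Finset.sum_congr rfl fun j _ => ?_
    split_ifs <;> simp
  refine ⟨fun i => ?_, fun i => ?_⟩
  · simp only [Pi.add_apply, Pi.smul_apply, smul_eq_mul]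
    have := mul_nonneg (sub_nonneg.2 t1.le) (v1 i)
    have := mul_pos t0 (w1 i)
    linarith
  · rw [hs]
    simp only [Pi.add_apply, Pi.smul_apply, smul_eq_mul]
    have e1 := mul_le_mul_of_nonneg_left (v2 i) (sub_nonneg.2 t1.le)
    have e2 := mul_lt_mul_of_pos_left (w2 i) t0
    nlinarith

theorem volume_ocell (nk : I → K) {Y : K → ℝ} (hY : ∀ k, 0 < Y k) :
    volume (ocell nk Y) = volume (H25.cell nk Y) := by
  refine le_antisymm (measure_mono ?_) ?_
  · rintro v ⟨v1, v2⟩
    exact ⟨fun i => (v1 i).le, fun i => (v2 i).le⟩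
  · refine (measure_mono (cell_subset_closure nk hY)).trans ?_
    rw [closure_eq_self_union_frontier]
    refine (measure_union_le _ _).trans ?_
    rw [(convex_ocell nk Y).addHaar_frontier volume, add_zero]

theorem real_ocell [Fintype K] (nk : I → K) {Y : K → ℝ} (hY : ∀ k, 0 < Y k) :
    volume.real (ocell nk Y) = ∏ k, Y k ^ Fintype.card {i // nk i = k} /
      ((Nat.factorial (Fintype.card {i // nk i = k} + 1) : ℕ) : ℝ) := by
  rw [Measure.real, volume_ocell nk hY]
  exact H25.volume_real_cell nk fun k => (hY k).le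

end cell

section main

variable {F S K C : Type} [Fintype F] [Fintype S] [DecidableEq K] [MeasureSpace C]
  [SigmaFinite (volume : Measure C)] (p : F → Prop) [DecidablePred p] (e : S ≃ {f // ¬ p f})

/-- the coordinates of the large gaps, and the surviving coordinates -/
def TT (C : Type) [MeasureSpace C] : ((F → ℝ) × (F → ℝ)) × C ≃ᵐ
    (({f // p f} → ℝ) × ({f // p f} → ℝ)) × (((S → ℝ) × (S → ℝ)) × C) :=
  ((((spl p e).prodCongr (spl p e)).trans
    (comm4 ({f // p f} → ℝ) (S → ℝ) ({f // p f} → ℝ) (S → ℝ))).prodCongr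
      (MeasurableEquiv.refl C)).trans MeasurableEquiv.prodAssoc

theorem measurePreserving_TT : MeasurePreserving (TT p e C) := by
  have h1 : MeasurePreserving (Prod.map (spl p e) (spl p e)) :=
    (measurePreserving_spl p e).prod (measurePreserving_spl p e)
  have h2 := (measurePreserving_comm4 (α := {f // p f} → ℝ) (β := S → ℝ)
    (γ := {f // p f} → ℝ) (δ := S → ℝ)).comp h1
  have h3 := h2.prod (MeasurePreserving.id (volume : Measure C))
  have h4 := (volume_preserving_prodAssoc (α₁ := ({f // p f} → ℝ) × ({f // p f} → ℝ))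
    (β₁ := (S → ℝ) × (S → ℝ)) (γ₁ := C)).comp h3
  exact h4

omit [SigmaFinite (volume : Measure C)] in
theorem TT_apply (x : ((F → ℝ) × (F → ℝ)) × C) :
    TT p e C x = ((fun i => x.1.1 i.1, fun i => x.1.2 i.1),
      ((fun s => x.1.1 (e s).1, fun s => x.1.2 (e s).1), x.2)) := rfl

/-- **the large gaps integrate to a volume** -/
theorem int_split [i1 : Fintype {f // p f}] (nk : {f // p f} → K) (Y : K → ℝ) (Ang : Set ℝ) (Zc : Set C)
    (G : ((S → ℝ) × (S → ℝ)) × C → ℝ) :
    ∫ x in {x : ((F → ℝ) × (F → ℝ)) × C | (∀ f, 0 < x.1.1 f) ∧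
      (∀ i : {f // p f}, x.1.1 i.1 < Y (nk i) -
        ∑ j : {f // p f}, if nk j = nk i then x.1.1 j.1 else 0) ∧
      (∀ f, x.1.2 f ∈ Ang) ∧ x.2 ∈ Zc},
      G ((fun s => x.1.1 (e s).1, fun s => x.1.2 (e s).1), x.2) =
    volume.real (ocell nk Y) * volume.real Ang ^ Fintype.card {f // p f} *
      ∫ z in {z : ((S → ℝ) × (S → ℝ)) × C | (∀ s, 0 < z.1.1 s) ∧ (∀ s, z.1.2 s ∈ Ang) ∧
        z.2 ∈ Zc}, G z := by
  obtain rfl : i1 = Subtype.fintype p := Subsingleton.elim _ _
  have hset : {x : ((F → ℝ) × (F → ℝ)) × C | (∀ f, 0 < x.1.1 f) ∧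
      (∀ i : {f // p f}, x.1.1 i.1 < Y (nk i) -
        ∑ j : {f // p f}, if nk j = nk i then x.1.1 j.1 else 0) ∧
      (∀ f, x.1.2 f ∈ Ang) ∧ x.2 ∈ Zc} =
      TT p e C ⁻¹' ((ocell nk Y ×ˢ univ.pi fun _ => Ang) ×ˢ
        {z : ((S → ℝ) × (S → ℝ)) × C | (∀ s, 0 < z.1.1 s) ∧ (∀ s, z.1.2 s ∈ Ang) ∧
          z.2 ∈ Zc}) := by
    ext x
    simp only [mem_preimage, mem_prod, TT_apply, mem_ofPred_eq, ocell, mem_pi, mem_univ,
      forall_true_left]
    constructor
    · rintro ⟨h1, h2, h3, h4⟩
      exact ⟨⟨⟨fun i => h1 _, h2⟩, fun i => h3 _⟩, fun s => h1 _, fun s => h3 _, h4⟩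
    · rintro ⟨⟨⟨h1, h2⟩, h3⟩, h4, h5, h6⟩
      refine ⟨fun f => ?_, h2, fun f => ?_, h6⟩
      · by_cases h : p f
        · exact h1 ⟨f, h⟩
        · have := h4 (e.symm ⟨f, h⟩)
          rwa [e.apply_symm_apply] at this
      · by_cases h : p f
        · exact h3 ⟨f, h⟩
        · have := h5 (e.symm ⟨f, h⟩)
          rwa [e.apply_symm_apply] at this
  rw [hset]
  have h1 := (measurePreserving_TT (C := C) p e).setIntegral_preimage_emb
    (TT p e C).measurableEmbedding (fun z => (1 : ℝ) * G z.2)
    ((ocell nk Y ×ˢ univ.pi fun _ => Ang) ×ˢ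
        {z : ((S → ℝ) × (S → ℝ)) × C | (∀ s, 0 < z.1.1 s) ∧ (∀ s, z.1.2 s ∈ Ang) ∧
          z.2 ∈ Zc})
  simp only [one_mul] at h1
  have h2 := setIntegral_prod_mul
    (μ := (volume : Measure (({f // p f} → ℝ) × ({f // p f} → ℝ))))
    (ν := (volume : Measure (((S → ℝ) × (S → ℝ)) × C)))
    (fun _ => (1 : ℝ)) G (ocell nk Y ×ˢ univ.pi fun _ => Ang)
    {z : ((S → ℝ) × (S → ℝ)) × C | (∀ s, 0 < z.1.1 s) ∧ (∀ s, z.1.2 s ∈ Ang) ∧
          z.2 ∈ Zc}
  simp only [one_mul] at h2
  refine h1.trans (h2.trans ?_)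
  congr 1
  rw [setIntegral_const, smul_eq_mul, mul_one]
  have h3 : (volume : Measure (({f // p f} → ℝ) × ({f // p f} → ℝ))).real
      (ocell nk Y ×ˢ univ.pi fun _ => Ang) =
      volume.real (ocell nk Y) * volume.real (univ.pi fun _ : {f // p f} => Ang) :=
    measureReal_prod_prod _ _
  rw [h3, Measure.real, Measure.real, Measure.real, volume_pi, Measure.pi_pi, Finset.prod_const,
    Finset.card_univ, ENNReal.toReal_pow]

end main

end Vale.Agent.P273.H539

end
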