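import Vale.Agent.P273.H573.Skel
import Vale.Agent.P273.H25.LastSum
import Vale.Agent.P273.H539.SvInt

/-!
# (S6-vol): the sum over the eliminated gaps, measure half

For a region `R` and a set `B'` of gaps that meets every neck: the integral over `domL` of a function
of the surviving coordinates is a volume times the integral over the surviving box; the sum over the
eliminated gaps of the volumes is `(2 π)^6 vol`.
-/

noncomputable section

namespace Vale.Agent.P273.H539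

open Set MeasureTheory H681 H95 H732 H562 H573

section Region

variable (R : Region) (m : ∀ k, Fin (R.n k + 1))

/-- surviving sizes, angles, and the marks on the cores -/
abbrev SvC (B' : Finset R.Gap) : Type := ((Sv R B' → ℝ) × (Sv R B' → ℝ)) × (R.Cm → ℂ)

/-- the surviving gaps as free gaps -/
def svF {B' : Finset R.Gap} (h : ∀ k, (⟨k, m k⟩ : R.Gap) ∈ B') (s : Sv R B') : (W R m).Fr :=
  ⟨s.1, fun e => s.2 (by rw [e]; exact h _)⟩

/-- the surviving coordinates of a point -/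
def rs {B' : Finset R.Gap} (h : ∀ k, (⟨k, m k⟩ : R.Gap) ∈ B') (x : Fb R m) : SvC R B' :=
  ((fun s => x.1.1 (svF R m h s), fun s => x.1.2 (svF R m h s)), x.2)

/-- the surviving box -/
def boxS (far : R.Cm → Bool) (B' : Finset R.Gap) : Set (SvC R B') :=
  {z | (∀ s, 0 < z.1.1 s) ∧ (∀ s, z.1.2 s ∈ Ioc (-Real.pi) Real.pi) ∧ ∀ c, z.2 c ∈ zone0 (far c)}

/-- the surviving gaps are the free gaps that are not large -/
def svE {B' : Finset R.Gap} (h : ∀ k, (⟨k, m k⟩ : R.Gap) ∈ B') {B : Finset (W R m).Fr}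
    (hB : ∀ f : (W R m).Fr, f ∈ B ↔ f.1 ∈ B') : Sv R B' ≃ {f : (W R m).Fr // ¬ f ∈ B} where
  toFun s := ⟨svF R m h s, fun e => s.2 ((hB _).1 e)⟩
  invFun f := ⟨f.1.1, fun e => f.2 ((hB _).2 e)⟩
  left_inv _ := rfl
  right_inv _ := rfl

theorem szl_last (B : Finset (W R m).Fr) (y : Fin 3 → ℝ) (x : Fb R m) (k : Fin 3) :
    szl R m (↑B) (H573.mk R m y 0 x) ((W R m).last k) =
      y k - ∑ j : {f // f ∈ B}, if (W R m).nk j.1.1 = k then x.1.1 j.1 else 0 := by
  have h1 : ¬ ((W R m).last k ≠ (W R m).last ((W R m).nk ((W R m).last k))) := by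
    rw [(W R m).nk_last]
    exact fun h => h rfl
  rw [szl, dif_neg h1, (W R m).nk_last]
  congr 1
  rw [Finset.sum_coe_sort B (fun f => if (W R m).nk f.1 = k then x.1.1 f else 0)]
  have h2 : ∑ f ∈ B, (if (W R m).nk f.1 = k then x.1.1 f else 0) =
      ∑ f, if f ∈ B then (if (W R m).nk f.1 = k then x.1.1 f else 0) else 0 := by
    rw [Finset.sum_ite_mem, Finset.univ_inter]
  rw [h2]
  refine Finset.sum_congr rfl fun f _ => ?_
  by_cases h3 : (W R m).nk f.1 = k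
  · by_cases h4 : f ∈ B
    · rw [if_pos h4, if_pos h3, if_pos ⟨h3, Finset.mem_coe.2 h4⟩]; rfl
    · rw [if_neg h4, if_neg fun h' => h4 (Finset.mem_coe.1 h'.2)]
  · rw [if_neg h3, if_neg fun h' => h3 h'.1]
    split_ifs <;> rfl

theorem domL_eq (far : R.Cm → Bool) (B : Finset (W R m).Fr) (y : Fin 3 → ℝ) :
    domL R m far B y = {x : (((W R m).Fr → ℝ) × ((W R m).Fr → ℝ)) × (R.Cm → ℂ) |
      (∀ f, 0 < x.1.1 f) ∧
      (∀ i : {f // f ∈ B}, x.1.1 i.1 < y ((W R m).nk i.1.1) -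
        ∑ j : {f // f ∈ B}, if (W R m).nk j.1.1 = (W R m).nk i.1.1 then x.1.1 j.1 else 0) ∧
      (∀ f, x.1.2 f ∈ Ioc (-Real.pi) Real.pi) ∧ x.2 ∈ {w | ∀ c, w c ∈ zone0 (far c)}} := by
  ext x
  simp only [domL, mem_ofPred_eq]
  refine and_congr_right fun _ => and_congr ?_ Iff.rfl
  constructor
  · intro h i
    have := h i.1 i.2
    rwa [szl_last] at this
  · intro h f hf
    rw [szl_last]
    exact h ⟨f, hf⟩

theorem mem_dn {B' : Finset R.Gap} {f : (W R m).Fr} : f ∈ H25.dn m B' ↔ f.1 ∈ B' := by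
  unfold H25.dn
  rw [Finset.mem_filter]
  exact ⟨fun h => h.2, fun h => ⟨Finset.mem_univ _, h⟩⟩

/-- number of the free large gaps of a neck -/
def qn (B : Finset (W R m).Fr) (k : Fin 3) : ℕ :=
  Fintype.card {i : {f // f ∈ B} // (W R m).nk i.1.1 = k}

/-- **one choice of the eliminated gaps** -/
theorem int_domL {B' : Finset R.Gap} (h : ∀ k, (⟨k, m k⟩ : R.Gap) ∈ B')
    {B : Finset (W R m).Fr} (hB : ∀ f : (W R m).Fr, f ∈ B ↔ f.1 ∈ B') (far : R.Cm → Bool)
    {y : Fin 3 → ℝ} (hy : ∀ k, 0 < y k) (G : SvC R B' → ℝ) :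
    ∫ x in domL R m far B y, G (rs R m h x) =
      (∏ k, y k ^ qn R m B k / ((Nat.factorial (qn R m B k + 1) : ℕ) : ℝ)) *
        (2 * Real.pi) ^ B.card * ∫ z in boxS R far B', G z := by
  have h1 := int_split (C := R.Cm → ℂ) (fun f : (W R m).Fr => f ∈ B) (svE R m h hB)
    (fun i => (W R m).nk i.1.1) y (Ioc (-Real.pi) Real.pi) {w | ∀ c, w c ∈ zone0 (far c)} G
  rw [domL_eq]
  have h2 : (volume : Measure ℝ).real (Ioc (-Real.pi) Real.pi) = 2 * Real.pi := by
    rw [Real.volume_real_Ioc_of_le (by linarith [Real.pi_pos])]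
    ring
  rw [real_ocell _ hy, h2, Fintype.card_coe] at h1
  exact h1

/-! ### measurability -/

theorem measurableSet_zone0 (f : Bool) : MeasurableSet (zone0 f) := by
  cases f
  · have h : zone0 false = {x : ℂ | ‖x‖ ≤ 11} ∩ ⋂ k, {x | 1 / 32 ≤ ‖x - ctr k‖} := by
      ext x; simp [zone0]
    rw [h]
    refine (isClosed_le continuous_norm continuous_const).measurableSet.inter
      (MeasurableSet.iInter fun k => (isClosed_le continuous_const ?_).measurableSet)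
    fun_prop
  · have h : zone0 true = {x : ℂ | x ≠ 0} ∩ {x | ‖x‖ < 1 / 11} := by
      ext x; simp [zone0]
    rw [h]
    exact (isOpen_ne.measurableSet).inter (isOpen_lt continuous_norm continuous_const).measurableSet

theorem measurableSet_domL (far : R.Cm → Bool) (B : Finset (W R m).Fr) (y : Fin 3 → ℝ) :
    MeasurableSet (domL R m far B y) := by
  have h : domL R m far B y = (⋂ f, {x : Fb R m | 0 < x.1.1 f}) ∩
      ((⋂ i : {f // f ∈ B}, {x : Fb R m | x.1.1 i.1 < y ((W R m).nk i.1.1) -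
        ∑ j : {f // f ∈ B}, if (W R m).nk j.1.1 = (W R m).nk i.1.1 then x.1.1 j.1 else 0}) ∩
      ((⋂ f, {x : Fb R m | x.1.2 f ∈ Ioc (-Real.pi) Real.pi}) ∩
        ⋂ c, {x : Fb R m | x.2 c ∈ zone0 (far c)})) := by
    rw [domL_eq]
    ext x
    simp only [mem_ofPred_eq, mem_inter_iff, mem_iInter]
  rw [h]
  refine (MeasurableSet.iInter fun f => ?_).inter ((MeasurableSet.iInter fun i => ?_).inter
    ((MeasurableSet.iInter fun f => ?_).inter (MeasurableSet.iInter fun c => ?_)))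
  · exact measurableSet_lt measurable_const
      ((measurable_pi_apply f).comp (measurable_fst.comp measurable_fst))
  · refine measurableSet_lt ((measurable_pi_apply i.1).comp (measurable_fst.comp measurable_fst))
      (measurable_const.sub (Finset.measurable_fun_sum _ fun j _ => ?_))
    split_ifs
    · exact (measurable_pi_apply j.1).comp (measurable_fst.comp measurable_fst)
    · exact measurable_const
  · exact ((measurable_pi_apply f).comp (measurable_snd.comp measurable_fst)) measurableSet_Ioc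
  · exact ((measurable_pi_apply c).comp measurable_snd) (measurableSet_zone0 _)

/-! ### cardinalities -/

theorem card_on (B' : Finset R.Gap) (k : Fin 3) : (H25.on B' k).card = crd R B' k := by
  unfold crd
  refine Finset.card_bij (fun j _ => (⟨k, j⟩ : R.Gap)) ?_ ?_ ?_
  · intro j hj
    simp only [H25.on, Finset.mem_filter, Finset.mem_univ, true_and] at hj
    exact Finset.mem_filter.2 ⟨hj, rfl⟩
  · intro i _ j _ e
    simpa using e
  · rintro ⟨k', j⟩ hg
    obtain ⟨h1, h2⟩ := Finset.mem_filter.1 hg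
    change k' = k at h2
    subst h2
    exact ⟨j, by simpa [H25.on] using h1, rfl⟩

theorem sum_crd (B' : Finset R.Gap) : ∑ k, crd R B' k = B'.card := by
  unfold crd
  exact (Finset.card_eq_sum_card_fiberwise (f := fun g : R.Gap => g.1) (s := B')
    (t := Finset.univ) fun _ _ => Finset.mem_coe.2 (Finset.mem_univ _)).symm

theorem card_dn {B' : Finset R.Gap} (h : ∀ k, (⟨k, m k⟩ : R.Gap) ∈ B') :
    (H25.dn m B').card + 3 = B'.card := by
  have h1 := H25.up_dn m h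
  have h2 : (H25.up m (H25.dn m B')).card = (H25.dn m B').card + 3 := by
    unfold H25.up
    rw [Finset.card_union_of_disjoint, Finset.card_map, Finset.card_image_of_injective,
      Finset.card_univ, Fintype.card_fin]
    · intro k k' e
      exact congrArg Sigma.fst e
    · rw [Finset.disjoint_left]
      intro g hg hg'
      obtain ⟨f, -, rfl⟩ := Finset.mem_map.1 hg
      obtain ⟨k, -, hk⟩ := Finset.mem_image.1 hg'
      exact H25.fr_ne m f k hk.symm
  rw [← h2, h1]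

theorem qn_dn {B' : Finset R.Gap} (h : ∀ k, (⟨k, m k⟩ : R.Gap) ∈ B') (k : Fin 3) :
    qn R m (H25.dn m B') k + 1 = crd R B' k := by
  rw [← card_on, ← H25.card_fr_on m h k]
  rfl

/-- **the sum over the eliminated gaps**, general region -/
theorem sum_domL_gen {B' : Finset R.Gap} (h9 : B'.card = 9) (hne : ∀ k, (H25.on B' k).Nonempty)
    (far : R.Cm → Bool) {y : Fin 3 → ℝ} (hy : ∀ k, 0 < y k) (G : SvC R B' → ℝ)
    (Φ : ∀ m : (∀ k, Fin (R.n k + 1)), Fb R m → ℝ)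
    (hΦ : ∀ (m : ∀ k, Fin (R.n k + 1)) (h : ∀ k, (⟨k, m k⟩ : R.Gap) ∈ B'),
      ∀ x ∈ domL R m far (H25.dn m B') y, Φ m x = G (rs R m h x)) :
    ∑ m ∈ Fintype.piFinset (H25.on B'), ∫ x in domL R m far (H25.dn m B') y, Φ m x =
      (2 * Real.pi) ^ 6 * vol R B' y * ∫ z in boxS R far B', G z := by
  have h1 : ∀ m ∈ Fintype.piFinset (H25.on B'), ∫ x in domL R m far (H25.dn m B') y, Φ m x =
      (∏ k, y k ^ ((H25.on B' k).card - 1) /
        ((Nat.factorial ((H25.on B' k).card - 1 + 1) : ℕ) : ℝ)) * (2 * Real.pi) ^ 6 *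
        ∫ z in boxS R far B', G z := by
    intro m hm
    have h : ∀ k, (⟨k, m k⟩ : R.Gap) ∈ B' := fun k => by
      simpa [H25.on] using Fintype.mem_piFinset.1 hm k
    rw [setIntegral_congr_fun (measurableSet_domL R m far _ y) fun x hx => hΦ m h x hx,
      int_domL R m h (fun f => mem_dn R m) far hy G]
    have h2 : (H25.dn m B').card = 6 := by
      have := card_dn R m h
      omega
    have h3 : ∀ k, qn R m (H25.dn m B') k = (H25.on B' k).card - 1 := fun k => by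
      have := qn_dn R m h k
      rw [card_on]
      omega
    rw [h2]
    simp only [h3]
  rw [Finset.sum_congr rfl h1, Finset.sum_const, Fintype.card_piFinset, nsmul_eq_mul]
  have h2 := H25.choices_mul_volume (fun k => (H25.on B' k).card - 1) y
  have h3 : ∀ k, (H25.on B' k).card - 1 + 1 = (H25.on B' k).card := fun k =>
    Nat.sub_add_cancel (Finset.card_pos.2 (hne k))
  have h4 : vol R B' y = ∏ k, y k ^ ((H25.on B' k).card - 1) /
      ((Nat.factorial ((H25.on B' k).card - 1) : ℕ) : ℝ) := by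
    unfold vol
    simp only [card_on]
  rw [h4, ← h2]
  simp only [h3]
  push_cast
  ring

end Region

/-! ### regions with gaps -/

section RB

variable (Q : H93.RB)

theorem mem_gB {g : (H728.rg Q).Gap} : g ∈ gB Q ↔ (g.2 : ℕ) ∈ Q.B g.1 := by
  simp [gB]

theorem fr_eq_dn (m : ∀ k, Fin ((H728.rg Q).n k + 1)) : Q.fr m = H25.dn m (gB Q) := by
  refine Finset.ext fun f => ?_
  have h1 : f ∈ Q.fr m ↔ f.1.2.1 ∈ Q.B f.1.1 :=
    H93.mem_frS (n := Q.n) (Bs := Q.B) (m := m) (f := f)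
  have h2 : f ∈ H25.dn m (gB Q) ↔ f.1.2.1 ∈ Q.B f.1.1 :=
    (mem_dn (H728.rg Q) m).trans (mem_gB Q)
  exact h1.trans h2.symm

theorem filter_eq : (Finset.univ.filter fun m : ∀ k, Fin ((H728.rg Q).n k + 1) =>
    ∀ k, (m k).1 ∈ Q.B k) = Fintype.piFinset (H25.on (gB Q)) := by
  ext m
  simp only [Finset.mem_filter, Finset.mem_univ, true_and, Fintype.mem_piFinset, H25.on, mem_gB]

theorem card_on_gB (k : Fin 3) : (H25.on (gB Q) k).card = (Q.B k).card := by
  refine Finset.card_bij (fun j _ => (j : ℕ)) ?_ ?_ ?_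
  · intro j hj
    simpa [H25.on, mem_gB] using hj
  · intro i _ j _ e
    exact Fin.ext e
  · intro i hi
    exact ⟨⟨i, Nat.lt_succ_iff.2 (Q.sub k i hi)⟩, by simpa [H25.on, mem_gB] using hi, rfl⟩

theorem card_gB (h9 : ∑ k, (Q.B k).card = 9) : (gB Q).card = 9 := by
  rw [← sum_crd, ← h9]
  exact Finset.sum_congr rfl fun k _ => by rw [← card_on, card_on_gB]

theorem crd_gB (k : Fin 3) : crd (H728.rg Q) (gB Q) k = (Q.B k).card := by
  rw [← card_on, card_on_gB]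

theorem mem_of {m : ∀ k, Fin ((H728.rg Q).n k + 1)} (h : ∀ k, (m k).1 ∈ Q.B k) (k : Fin 3) :
    (⟨k, m k⟩ : (H728.rg Q).Gap) ∈ gB Q := (mem_gB Q).2 (h k)

/-- **(S6-vol)** -/
theorem sum_domL (h9 : ∑ k, (Q.B k).card = 9) (far : (H728.rg Q).Cm → Bool) {y : Fin 3 → ℝ}
    (hy : ∀ k, 0 < y k) (G : SvC (H728.rg Q) (gB Q) → ℝ)
    (Φ : ∀ m : (∀ k, Fin ((H728.rg Q).n k + 1)), Fb (H728.rg Q) m → ℝ)
    (hΦ : ∀ (m : ∀ k, Fin ((H728.rg Q).n k + 1)) (h : ∀ k, (m k).1 ∈ Q.B k),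
      ∀ x ∈ domL (H728.rg Q) m far (Q.fr m) y, Φ m x = G (rs (H728.rg Q) m (mem_of Q h) x)) :
    ∑ m : ∀ k, Fin ((H728.rg Q).n k + 1) with ∀ k, (m k).1 ∈ Q.B k,
      ∫ x in domL (H728.rg Q) m far (Q.fr m) y, Φ m x =
      (2 * Real.pi) ^ 6 * vol (H728.rg Q) (gB Q) y * ∫ z in boxS (H728.rg Q) far (gB Q), G z := by
  rw [filter_eq]
  simp only [fr_eq_dn] at hΦ ⊢
  refine sum_domL_gen (H728.rg Q) (card_gB Q h9) (fun k => ?_) far hy G Φ fun m h x hx => ?_
  · rw [← Finset.card_pos, card_on_gB]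
    exact Finset.card_pos.2 (Q.ne k)
  · exact hΦ m (fun k => (mem_gB Q).1 (h k)) x hx

/-- one choice of the eliminated gaps -/
theorem int_domL_RB (h9 : ∑ k, (Q.B k).card = 9) {m : ∀ k, Fin ((H728.rg Q).n k + 1)}
    (h : ∀ k, (m k).1 ∈ Q.B k) (far : (H728.rg Q).Cm → Bool) {y : Fin 3 → ℝ}
    (hy : ∀ k, 0 < y k) (G : SvC (H728.rg Q) (gB Q) → ℝ) (Φ : Fb (H728.rg Q) m → ℝ)
    (hΦ : ∀ x ∈ domL (H728.rg Q) m far (Q.fr m) y, Φ x = G (rs (H728.rg Q) m (mem_of Q h) x)) :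
    ∫ x in domL (H728.rg Q) m far (Q.fr m) y, Φ x =
      (∏ k, ((Q.B k).card : ℝ))⁻¹ * ((2 * Real.pi) ^ 6 * vol (H728.rg Q) (gB Q) y) *
        ∫ z in boxS (H728.rg Q) far (gB Q), G z := by
  simp only [fr_eq_dn] at hΦ ⊢
  rw [setIntegral_congr_fun (measurableSet_domL (H728.rg Q) m far _ y) hΦ,
    int_domL (H728.rg Q) m (mem_of Q h) (fun f => mem_dn _ m) far hy G]
  have h2 : (H25.dn m (gB Q)).card = 6 := by
    have := card_dn (H728.rg Q) m (mem_of Q h)
    rw [card_gB Q h9] at this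
    exact Nat.add_right_cancel (m := 3) this
  have hpos : ∀ k, 0 < (Q.B k).card := fun k => Finset.card_pos.2 (Q.ne k)
  have h3 : ∀ k, qn (H728.rg Q) m (H25.dn m (gB Q)) k = (Q.B k).card - 1 := fun k => by
    have := qn_dn (H728.rg Q) m (mem_of Q h) k
    rw [crd_gB] at this
    have h4 := hpos k
    omega
  have h5 : (∏ k, y k ^ ((Q.B k).card - 1) / ((Nat.factorial ((Q.B k).card - 1 + 1) : ℕ) : ℝ)) =
      (∏ k, ((Q.B k).card : ℝ))⁻¹ * vol (H728.rg Q) (gB Q) y := by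
    have h6 := H25.choices_mul_volume (fun k => (Q.B k).card - 1) y
    have h7 : ∀ k, (Q.B k).card - 1 + 1 = (Q.B k).card := fun k => Nat.sub_add_cancel (hpos k)
    have h8 : vol (H728.rg Q) (gB Q) y = ∏ k, y k ^ ((Q.B k).card - 1) /
        ((Nat.factorial ((Q.B k).card - 1) : ℕ) : ℝ) := by
      unfold vol
      simp only [crd_gB]
    rw [h8, ← h6]
    simp only [h7]
    have h10 : (∏ k, ((Q.B k).card : ℝ)) ≠ 0 :=
      Finset.prod_ne_zero_iff.2 fun k _ => Nat.cast_ne_zero.2 (hpos k).ne'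
    rw [inv_mul_cancel_left₀ h10]
  rw [h2]
  simp only [h3]
  rw [h5]
  ring

theorem card_choices : (Finset.univ.filter fun m : ∀ k, Fin ((H728.rg Q).n k + 1) =>
    ∀ k, (m k).1 ∈ Q.B k).card = ∏ k, (Q.B k).card := by
  rw [filter_eq, Fintype.card_piFinset]
  exact Finset.prod_congr rfl fun k _ => card_on_gB Q k

theorem cardprod_ne : (∏ k, ((Q.B k).card : ℝ)) ≠ 0 :=
  Finset.prod_ne_zero_iff.2 fun k _ => Nat.cast_ne_zero.2 (Finset.card_pos.2 (Q.ne k)).ne'

theorem volume_square : (volume : Measure (Fin 2 → ℝ)).real (Icc 0 1) = 1 := by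
  rw [Measure.real, Real.volume_Icc_pi_toReal (fun _ => by simp)]
  simp

theorem alg1 {P : ℝ} (h : P ≠ 0) (A c I : ℝ) : P * (P⁻¹ * A * (c * I)) = A * c * I := by
  field_simp

theorem alg2 {P : ℝ} (h : P ≠ 0) (A : ℝ) : P * (P⁻¹ * A) = A := by
  field_simp

/-- two outer variables that do not matter -/
theorem sumT_abs (h9 : ∑ k, (Q.B k).card = 9) (far : (H728.rg Q).Cm → Bool) (c : ℝ)
    (G : SvC (H728.rg Q) (gB Q) → ℝ) {y : Fin 3 → ℝ} (hy : ∀ k, 0 < y k)
    (Φ : ∀ m : (∀ k, Fin ((H728.rg Q).n k + 1)), (Fin 2 → ℝ) → Fb (H728.rg Q) m → ℝ)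
    (hG : ∀ (m : ∀ k, Fin ((H728.rg Q).n k + 1)) (h : ∀ k, (m k).1 ∈ Q.B k),
      ∀ s, ∀ x ∈ domL (H728.rg Q) m far (Q.fr m) y,
        Φ m s x = c * G (rs (H728.rg Q) m (mem_of Q h) x)) :
    ∑ m : ∀ k, Fin ((H728.rg Q).n k + 1) with ∀ k, (m k).1 ∈ Q.B k,
      ∫ s in Icc (0 : Fin 2 → ℝ) 1, ∫ x in domL (H728.rg Q) m far (Q.fr m) y, Φ m s x =
    (2 * Real.pi) ^ 6 * vol (H728.rg Q) (gB Q) y * c *
      ∫ z in boxS (H728.rg Q) far (gB Q), G z := by
  have h1 : ∀ m ∈ (Finset.univ.filter fun m : ∀ k, Fin ((H728.rg Q).n k + 1) =>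
      ∀ k, (m k).1 ∈ Q.B k),
      ∫ s in Icc (0 : Fin 2 → ℝ) 1, ∫ x in domL (H728.rg Q) m far (Q.fr m) y, Φ m s x =
      (∏ k, ((Q.B k).card : ℝ))⁻¹ * ((2 * Real.pi) ^ 6 * vol (H728.rg Q) (gB Q) y) *
        (c * ∫ z in boxS (H728.rg Q) far (gB Q), G z) := by
    intro m hm
    have h := (Finset.mem_filter.1 hm).2
    have h2 : ∀ s : Fin 2 → ℝ, ∫ x in domL (H728.rg Q) m far (Q.fr m) y, Φ m s x =
        (∏ k, ((Q.B k).card : ℝ))⁻¹ * ((2 * Real.pi) ^ 6 * vol (H728.rg Q) (gB Q) y) *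
        ∫ z in boxS (H728.rg Q) far (gB Q), c * G z := fun s =>
      int_domL_RB Q h9 h far hy (fun z => c * G z) _ (hG m h s)
    rw [integral_congr_ae (Filter.Eventually.of_forall h2), setIntegral_const, volume_square,
      one_smul, integral_const_mul]
  rw [Finset.sum_congr rfl h1, Finset.sum_const, card_choices, nsmul_eq_mul, Nat.cast_prod]
  exact alg1 (cardprod_ne Q) _ _ _

/-- one outer variable that matters -/
theorem sumA_abs (h9 : ∑ k, (Q.B k).card = 9) (far : (H728.rg Q).Cm → Bool) (c : ℝ → ℝ)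
    (G : SvC (H728.rg Q) (gB Q) → ℝ) {y : ℝ → Fin 3 → ℝ} (hy : ∀ Y > (1 : ℝ), ∀ k, 0 < y Y k)
    (Φ : ∀ m : (∀ k, Fin ((H728.rg Q).n k + 1)), ℝ × ℝ → Fb (H728.rg Q) m → ℝ)
    (hG : ∀ (m : ∀ k, Fin ((H728.rg Q).n k + 1)) (h : ∀ k, (m k).1 ∈ Q.B k),
      ∀ q : ℝ × ℝ, 1 < q.1 → ∀ x ∈ domL (H728.rg Q) m far (Q.fr m) (y q.1),
        Φ m q x = c q.1 * G (rs (H728.rg Q) m (mem_of Q h) x)) :
    ∑ m : ∀ k, Fin ((H728.rg Q).n k + 1) with ∀ k, (m k).1 ∈ Q.B k,
      ∫ q in Ioi (1 : ℝ) ×ˢ Icc (0 : ℝ) 1,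
        ∫ x in domL (H728.rg Q) m far (Q.fr m) (y q.1), Φ m q x =
    (∫ Y in Ioi (1 : ℝ), (2 * Real.pi) ^ 6 * vol (H728.rg Q) (gB Q) (y Y) * c Y) *
      ∫ z in boxS (H728.rg Q) far (gB Q), G z := by
  have h1 : ∀ m ∈ (Finset.univ.filter fun m : ∀ k, Fin ((H728.rg Q).n k + 1) =>
      ∀ k, (m k).1 ∈ Q.B k),
      ∫ q in Ioi (1 : ℝ) ×ˢ Icc (0 : ℝ) 1,
        ∫ x in domL (H728.rg Q) m far (Q.fr m) (y q.1), Φ m q x =
      (∏ k, ((Q.B k).card : ℝ))⁻¹ *
        ((∫ Y in Ioi (1 : ℝ), (2 * Real.pi) ^ 6 * vol (H728.rg Q) (gB Q) (y Y) * c Y) *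
          ∫ z in boxS (H728.rg Q) far (gB Q), G z) := by
    intro m hm
    have h := (Finset.mem_filter.1 hm).2
    have h2 : ∀ q ∈ Ioi (1 : ℝ) ×ˢ Icc (0 : ℝ) 1,
        ∫ x in domL (H728.rg Q) m far (Q.fr m) (y q.1), Φ m q x =
        (∏ k, ((Q.B k).card : ℝ))⁻¹ * (((2 * Real.pi) ^ 6 *
          vol (H728.rg Q) (gB Q) (y q.1) * c q.1) *
          ∫ z in boxS (H728.rg Q) far (gB Q), G z) * 1 := by
      intro q hq
      have hq1 : (1 : ℝ) < q.1 := hq.1
      rw [int_domL_RB Q h9 h far (hy q.1 hq1) (fun z => c q.1 * G z) _ (hG m h q hq1),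
        integral_const_mul]
      ring
    rw [setIntegral_congr_fun (measurableSet_Ioi.prod measurableSet_Icc) h2]
    have h3 := setIntegral_prod_mul (μ := (volume : Measure ℝ)) (ν := (volume : Measure ℝ))
      (fun Y : ℝ => (∏ k, ((Q.B k).card : ℝ))⁻¹ * (((2 * Real.pi) ^ 6 *
          vol (H728.rg Q) (gB Q) (y Y) * c Y) *
          ∫ z in boxS (H728.rg Q) far (gB Q), G z)) (fun _ : ℝ => (1 : ℝ)) (Ioi 1) (Icc 0 1)
    refine h3.trans ?_
    rw [setIntegral_const, Real.volume_real_Icc_of_le zero_le_one, sub_zero, one_smul, mul_one,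
      integral_const_mul, integral_mul_const]
  rw [Finset.sum_congr rfl h1, Finset.sum_const, card_choices, nsmul_eq_mul, Nat.cast_prod]
  exact alg2 (cardprod_ne Q) _

end RB

end Vale.Agent.P273.H539

end
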