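import Vale.Agent.P273.H573.SumDefs
import Vale.Agent.P273.H539.S6Vol

/-!
# (S6-vol), literal form
-/

noncomputable section

namespace Vale.Agent.P273.H539

open Set MeasureTheory H681 H95 H732 H562 H573

theorem rst_eq (R : Region) (m : ∀ k, Fin (R.n k + 1)) {B' : Finset R.Gap}
    (h : ∀ k, (⟨k, m k⟩ : R.Gap) ∈ B') (x : Fb R m) : rst R m B' x = rs R m h x := by
  unfold rst rs
  refine Prod.ext (Prod.ext (funext fun g => ?_) (funext fun g => ?_)) rfl
  · exact dif_pos (svF R m h g).2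
  · exact dif_pos (svF R m h g).2

/-- **(S6-vol)** -/
theorem vol : H573.Vol := by
  intro Q m hm h9 far y hy G
  have h := mem_of Q hm
  have h1 := int_domL (H728.rg Q) m h (B := H25.dn m (gB Q)) (fun f => mem_dn _ m) far hy G
  have h2 : (H25.dn m (gB Q)).card = 6 := by
    have := card_dn (H728.rg Q) m h
    rw [card_gB Q h9] at this
    exact Nat.add_right_cancel (m := 3) this
  have hpos : ∀ k, 0 < (Q.B k).card := fun k => Finset.card_pos.2 (Q.ne k)
  have h3 : ∀ k, qn (H728.rg Q) m (H25.dn m (gB Q)) k + 1 = (Q.B k).card := fun k => by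
    have := qn_dn (H728.rg Q) m h k
    rwa [crd_gB] at this
  have h4 : (∏ k, y k ^ qn (H728.rg Q) m (H25.dn m (gB Q)) k /
      ((Nat.factorial (qn (H728.rg Q) m (H25.dn m (gB Q)) k + 1) : ℕ) : ℝ)) =
      ∏ k, y k ^ ((Q.B k).card - 1) / ((Q.B k).card.factorial : ℝ) := by
    refine Finset.prod_congr rfl fun k _ => ?_
    rw [← h3 k, Nat.add_sub_cancel]
  rw [h2, h4] at h1
  have h5 : (fun x => G (rst (H728.rg Q) m (gB Q) x)) = fun x => G (rs (H728.rg Q) m h x) :=
    funext fun x => by rw [rst_eq (H728.rg Q) m h]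
  rw [h5, fr_eq_dn]
  exact h1

end Vale.Agent.P273.H539

end
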